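import Vale.Agent.P236Q.Step

/-!
# P236, row PER: extension of the tables to the cells above the line `9 s - 2 T = 20`

On a cell with `hi s T` the basis is `b₁` times the basis of the cell `(s - 2, T - 3)`, where `b₁`
is the multiplier number `kb`.

* `crd_X`: the step `X`;
* `crd_full`: the steps `V`, `W`, `X` together, with bounded checks.
-/

namespace Vale.Agent.P236Q

open Vale.Agent.P236K Vale.Agent.P236E

/-- The cells where the multiplication by `b` from `(s - 2, T - 3)` is bijective and which are not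
below the vanishing line. -/
def hi (s T : ℕ) : Bool := Nat.blt (2 * T + 20) (9 * s) && Nat.ble (3 * s) (2 * T + 1)

theorem hi_iff {s T : ℕ} : hi s T = true ↔ 2 * T + 20 < 9 * s ∧ 3 * s ≤ 2 * T + 1 := by
  rw [hi, Bool.and_eq_true, Nat.blt_eq, Nat.ble_eq]

/-- The table without the high cells. -/
def resX (τ : Tab) : Tab := { τ with reg := fun s T => τ.reg s T && !hi s T }

variable {τ : Tab} {S : SS} {K S0 T0 : ℕ}

theorem Bnd.resX (hB : Bnd τ K S0 T0) : Bnd (resX τ) K S0 T0 :=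
  ⟨fun h => hB.reg (Bool.and_eq_true_iff.1 h).1, hB.mulK, hB.mulD, hB.bokD⟩

theorem resX_reg {s T : ℕ} (h : τ.reg s T = true) (h' : hi s T = false) :
    (resX τ).reg s T = true := by
  simp only [resX, h, h', Bool.not_false, Bool.and_self]

/-- The check of the matrix `M s T` of an operation of bidegree `(a, U)` which commutes with an
operation of bidegree `(2, 3)` with matrix `B`; `p s T i` is a preimage of the basis vector `i`. -/
def chkJ (τ : Tab) (B p : ℕ → ℕ → ℕ → ℕ → ℕ) (a U : ℕ) (M : ℕ → ℕ → ℕ → ℕ → ℕ) (s T : ℕ) : Bool :=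
  agree (τ.dim s T) (τ.dim (a + s) (U + T)) (M s T)
    (fun i => Nat.ble 2 s && (Nat.ble 3 T && (τ.reg (s - 2) (T - 3) &&
      (τ.reg (a + (s - 2)) (U + (T - 3)) &&
      ((allB (τ.dim (s - 2) (T - 3)) fun m => Nat.ble (p s T i m) 2) &&
      allB (τ.dim s T) fun l =>
        Nat.beq (app (τ.dim (s - 2) (T - 3)) (p s T i) (B (s - 2) (T - 3)) l) (uv i l))))))
    fun i l => app (τ.dim (a + (s - 2)) (U + (T - 3)))
      (app (τ.dim (s - 2) (T - 3)) (p s T i) (M (s - 2) (T - 3))) (B (a + (s - 2)) (U + (T - 3))) l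

theorem col_J {co : ℕ → ℕ → S.A →ₗ[F] (ℕ → F)}
    (hc : ∀ s T, τ.reg s T = true → Cell (S.G s T) (co s T) (τ.dim s T)) {R : S.A →ₗ[F] S.A}
    (hR : ∀ s T, ∀ x ∈ S.G s T, R x ∈ S.G (s + 2) (T + 3)) {B p : ℕ → ℕ → ℕ → ℕ → ℕ}
    (hB : ∀ s T, τ.reg s T = true → τ.reg (s + 2) (T + 3) = true →
      Col (S.G s T) (co s T) (co (s + 2) (T + 3)) R (B s T))
    {a U : ℕ} {f : S.A →ₗ[F] S.A} (hf : ∀ s T, ∀ x ∈ S.G s T, f x ∈ S.G (a + s) (U + T))
    (hfR : ∀ s T, ∀ x ∈ S.G s T, f (R x) = R (f x)) {M : ℕ → ℕ → ℕ → ℕ → ℕ}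
    (hD : ∀ s T i l, τ.dim (a + s) (U + T) ≤ l → 3 ≤ M s T i l)
    (H : ∀ s T, τ.reg s T = true → τ.reg (a + s) (U + T) = true →
      Col (S.G s T) (co s T) (co (a + s) (U + T)) f (M s T) ∨ chkJ τ B p a U M s T = true)
    (s : ℕ) : ∀ T, τ.reg s T = true → τ.reg (a + s) (U + T) = true →
      Col (S.G s T) (co s T) (co (a + s) (U + T)) f (M s T) := by
  induction s using Nat.strong_induction_on with
  | _ s ih =>
  intro T h h'
  refine (H s T h h').elim id fun h1 => ?_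
  refine col_of_agree (hc s T h) h1 (hD s T) fun i l h2 z hz hi => ?_
  simp only [Bool.and_eq_true, Nat.ble_eq, allB_iff, Nat.beq_eq] at h2
  obtain ⟨h2, h3, h4, h5, h6, h7⟩ := h2
  obtain ⟨s, rfl⟩ : ∃ s', s = s' + 2 := ⟨s - 2, by omega⟩
  obtain ⟨T, rfl⟩ : ∃ T', T = T' + 3 := ⟨T - 3, by omega⟩
  simp only [Nat.add_sub_cancel] at h4 h5 h6 h7 ⊢
  obtain ⟨x, hx, hp⟩ := (hc s T h4).exists_co fun m => (p (s + 2) (T + 3) i m : ℕ)
  have hp' : ∀ m < τ.dim s T, Kn (p (s + 2) (T + 3) i m) (co s T x m) := fun m hm _ => hp m hm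
  obtain rfl : R x = z := (hc _ _ h).eq (hR _ _ x hx) hz fun l hl => by
    have h8 := (hc s T h4).app (hB s T h4 h) hx hp' l
    rw [h7 l hl] at h8
    rw [h8 (uv_lt _ _), hi, cast_uv]
  rw [hfR _ _ x hx]
  exact (hc _ _ h5).app (hB _ _ h5 h') (hf _ _ x hx)
    (fun m _ => (hc s T h4).app (ih s (by omega) T h4 h5) hx hp' m) l

/-- The new coordinates. -/
noncomputable def coX (co : ℕ → ℕ → S.A →ₗ[F] (ℕ → F)) (q : ℕ → ℕ → S.A →ₗ[F] S.A) :
    ℕ → ℕ → S.A →ₗ[F] (ℕ → F)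
  | 0, T => co 0 T
  | 1, T => co 1 T
  | s + 2, T => cond (hi (s + 2) T) ((coX co q s (T - 3)).comp (q s (T - 3))) (co (s + 2) T)

theorem coX_lo (co : ℕ → ℕ → S.A →ₗ[F] (ℕ → F)) (q : ℕ → ℕ → S.A →ₗ[F] S.A) {s T : ℕ}
    (h : hi s T = false) : coX co q s T = co s T := by
  rcases s with _ | _ | s
  · rfl
  · rfl
  · rw [coX, h, cond_false]

theorem coX_hi (co : ℕ → ℕ → S.A →ₗ[F] (ℕ → F)) (q : ℕ → ℕ → S.A →ₗ[F] S.A) {s T : ℕ}
    (h : hi (s + 2) (T + 3) = true) (x : S.A) :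
    coX co q (s + 2) (T + 3) x = coX co q s T (q s T x) := by
  rw [coX, h, cond_true, Nat.add_sub_cancel, LinearMap.comp_apply]

theorem exists_inv (R : S.A →ₗ[F] S.A) (G : Submodule F S.A) : ∃ q : S.A →ₗ[F] S.A,
    (∀ z ∈ G, R z = 0 → z = 0) → ∀ z ∈ G, q (R z) = z := by
  by_cases h : ∀ z ∈ G, R z = 0 → z = 0
  · obtain ⟨g, hg⟩ := (R.comp G.subtype).exists_leftInverse_of_injective
      (LinearMap.ker_eq_bot'.2 fun z hz => Subtype.ext (h z.1 z.2 hz))
    exact ⟨G.subtype.comp g, fun _ z hz =>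
      congrArg Subtype.val (LinearMap.congr_fun hg (⟨z, hz⟩ : G))⟩
  · exact ⟨0, fun h' => absurd h' h⟩

/-- The matrix of the multiplication by `b₁`. -/
def bM (τ : Tab) (kb s T : ℕ) : ℕ → ℕ → ℕ := cond (hi (s + 2) (T + 3)) uv (τ.mul kb s T)

/-- The preimages of the basis vectors. -/
def pV (pre : ℕ → ℕ → ℕ → ℕ → ℕ) (s T i : ℕ) : ℕ → ℕ := cond (hi s T) (uv i) (pre s T i)

/-- The check of the multiplier `kb`. -/
def chkB (τ : Tab) (kb : ℕ) : Bool :=
  Nat.beq (τ.ms kb) 2 && (Nat.beq (τ.mT kb) 3 && (τ.reg 2 3 && (Nat.beq (τ.dim 2 3) 1 &&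
    (Nat.beq (τ.mul kb 0 0 0 0) 1 || Nat.beq (τ.mul kb 0 0 0 0) 2))))

/-- The check for the step `X`. -/
def chkX (τ : Tab) (K kb : ℕ) (pre : ℕ → ℕ → ℕ → ℕ → ℕ) (s T : ℕ) : Bool :=
  (!hi s T || (τ.reg (s - 2) (T - 3) && Nat.beq (τ.dim s T) (τ.dim (s - 2) (T - 3)))) &&
  ((!τ.reg (1 + s) (0 + T) || ((!hi s T && !hi (1 + s) (0 + T)) ||
    chkJ τ (bM τ kb) (pV pre) 1 0 τ.bok s T)) &&
  allB K fun k => !τ.reg (τ.ms k + s) (τ.mT k + T) ||
    ((!hi s T && !hi (τ.ms k + s) (τ.mT k + T)) ||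
    cond (Nat.beq k kb) (hi (τ.ms k + s) (τ.mT k + T) && agree (τ.dim s T)
      (τ.dim (τ.ms k + s) (τ.mT k + T)) (τ.mul k s T) (fun _ => true) uv)
      (chkJ τ (bM τ kb) (pV pre) (τ.ms k) (τ.mT k) (τ.mul k) s T)))

/-- The multiplier `kb` is `± b`. -/
theorem mu_eq (C : Crd (resX τ) S) {kb : ℕ} (h : chkB τ kb = true) :
    τ.ms kb = 2 ∧ τ.mT kb = 3 ∧ ∃ c : F, c ≠ 0 ∧ C.mu kb = c • S.b := by
  simp only [chkB, Bool.and_eq_true, Bool.or_eq_true, Nat.beq_eq] at h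
  obtain ⟨h1, h2, h3, h4, h5⟩ := h
  refine ⟨h1, h2, ?_⟩
  have r : (resX τ).reg 2 3 = true := resX_reg h3 rfl
  have hμ : C.mu kb ∈ S.G 2 3 := by
    have := C.mu_mem kb
    change _ ∈ S.G (τ.ms kb) (τ.mT kb) at this
    rwa [h1, h2] at this
  have hb := S.P_le S.b_mem
  have e1 := colM C kb (s' := 2) (T' := 3) h1 h2 C.reg_zero r 0 0 _ S.one_mem C.co_one
  rw [S.mul_one hμ] at e1
  have e2 : C.co 2 3 (C.mu kb) 0 ≠ 0 := by
    change Kn (τ.mul kb 0 0 0 0) _ at e1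
    rcases h5 with h5 | h5 <;> rw [h5] at e1 <;> rw [e1 (by norm_num)] <;> decide
  have d : (resX τ).dim 2 3 = 1 := h4
  have e3 : C.co 2 3 S.b 0 ≠ 0 := fun h0 => S.b_ne ((cell C r).eq hb (zero_mem _) fun l hl => by
    obtain rfl : l = 0 := by omega
    rw [h0, map_zero, Pi.zero_apply])
  refine ⟨C.co 2 3 (C.mu kb) 0 / C.co 2 3 S.b 0, div_ne_zero e2 e3,
    (cell C r).eq hμ (Submodule.smul_mem _ _ hb) fun l hl => ?_⟩
  obtain rfl : l = 0 := by omega
  rw [map_smul, Pi.smul_apply, smul_eq_mul, div_mul_cancel₀ _ e3]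

theorem crd_X (hB : Bnd τ K S0 T0) {kb : ℕ} {pre : ℕ → ℕ → ℕ → ℕ → ℕ} (C : Crd (resX τ) S)
    (H0 : chkB τ kb = true)
    (H : ∀ s T, τ.reg s T = true → chkX τ K kb pre s T = true) : Nonempty (Crd τ S) := by
  obtain ⟨k1, k2, c, hc0, hμ⟩ := mu_eq C H0
  have hb := S.P_le S.b_mem
  have hc : ∀ s T, ∀ x ∈ S.G s T, S.mul x S.b = S.mul S.b x := fun s T x hx => by
    rw [S.mul_comm hx hb, pow_mul', neg_one_sq, one_pow, one_smul]
  set R := S.mul (C.mu kb) with hR
  have R1 : ∀ s T, ∀ x ∈ S.G s T, R x = c • S.mul x S.b := fun s T x hx => by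
    rw [hR, hμ, map_smul, LinearMap.smul_apply, hc s T x hx]
  have R2 : ∀ s T, ∀ x ∈ S.G s T, R x ∈ S.G (s + 2) (T + 3) := fun s T x hx => by
    rw [R1 s T x hx]
    exact Submodule.smul_mem _ _ (S.mul_mem hx hb)
  choose q hq using fun s T => exists_inv R (S.G s T)
  have R3 : ∀ s T, hi (s + 2) (T + 3) = true → ∀ z ∈ S.G s T, q s T (R z) = z := fun s T h => by
    rw [hi_iff] at h
    obtain ⟨s, rfl⟩ : ∃ s', s = s' + 1 := ⟨s - 1, by omega⟩
    refine hq _ _ fun z hz h0 => S.b_inj (by omega) hz ?_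
    rw [R1 _ _ z hz] at h0
    exact (smul_eq_zero.1 h0).resolve_left hc0
  have R4 : ∀ s T, hi (s + 2) (T + 3) = true → ∀ y ∈ S.G (s + 2) (T + 3),
      ∃ z ∈ S.G s T, y = R z := fun s T h y hy => by
    rw [hi_iff] at h
    obtain ⟨z, hz, rfl⟩ := S.b_onto (by omega) hy
    refine ⟨c⁻¹ • z, Submodule.smul_mem _ _ hz, ?_⟩
    rw [map_smul, R1 _ _ z hz, smul_smul, inv_mul_cancel₀ hc0, one_smul]
  have R5 : ∀ s T, hi (s + 2) (T + 3) = true → ∀ z ∈ S.G s T,
      coX C.co q (s + 2) (T + 3) (R z) = coX C.co q s T z := fun s T h z hz => by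
    rw [coX_hi _ _ h, R3 s T h z hz]
  have X := fun s T h => Bool.and_eq_true_iff.1 (H s T h)
  have c1 : ∀ s T, τ.reg s T = true → Cell (S.G s T) (coX C.co q s T) (τ.dim s T) := by
    intro s
    induction s using Nat.strong_induction_on with
    | _ s ih =>
    intro T h
    rcases h1 : hi s T with _ | _
    · rw [coX_lo _ _ h1]
      exact cell C (resX_reg h h1)
    · have h2 := (X s T h).1
      rw [h1, Bool.not_true, Bool.false_or, Bool.and_eq_true, Nat.beq_eq] at h2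
      have h3 := hi_iff.1 h1
      obtain ⟨s, rfl⟩ : ∃ s', s = s' + 2 := ⟨s - 2, by omega⟩
      obtain ⟨T, rfl⟩ : ∃ T', T = T' + 3 := ⟨T - 3, by omega⟩
      simp only [Nat.add_sub_cancel] at h2
      have h4 := ih s (by omega) T h2.1
      rw [h2.2]
      refine ⟨fun x i hi => ?_, fun y hy h0 => ?_, fun i hi => ?_⟩
      · rw [coX_hi _ _ h1]
        exact h4.ge _ i hi
      · obtain ⟨z, hz, rfl⟩ := R4 s T h1 y hy
        rw [R5 s T h1 z hz] at h0
        rw [h4.inj z hz h0, map_zero]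
      · obtain ⟨z, hz, h5⟩ := h4.surj i hi
        exact ⟨R z, R2 _ _ z hz, by rw [R5 s T h1 z hz, h5]⟩
  have c2 : ∀ s T, hi (s + 2) (T + 3) = true →
      Col (S.G s T) (coX C.co q s T) (coX C.co q (s + 2) (T + 3)) R uv := fun s T h i l z hz hi => by
    rw [R5 s T h z hz, hi]
    exact Kn.uv i l
  have c3 : ∀ s T, τ.reg s T = true → τ.reg (s + 2) (T + 3) = true → Col (S.G s T)
      (coX C.co q s T) (coX C.co q (s + 2) (T + 3)) R (bM τ kb s T) := fun s T h h' => by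
    rcases h1 : hi (s + 2) (T + 3) with _ | _
    · have h2 : hi s T = false := by
        rw [← Bool.not_eq_true, hi_iff] at h1 ⊢
        omega
      rw [bM, h1, cond_false, coX_lo _ _ h1, coX_lo _ _ h2]
      exact colM C kb (by change τ.ms kb + _ = _; omega) (by change τ.mT kb + _ = _; omega)
        (resX_reg h h2) (resX_reg h' h1)
    · rw [bM, h1, cond_true]
      exact c2 s T h1
  have c4 : ∀ s T, τ.reg s T = true → τ.reg (1 + s) (0 + T) = true → Col (S.G s T)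
      (coX C.co q s T) (coX C.co q (1 + s) (0 + T)) S.β (τ.bok s T) := by
    refine col_J c1 R2 c3 (p := pV pre) (fun s T x hx => ?_) (fun s T x hx => ?_)
      (fun s T i l hl => hB.bokD i (by rwa [add_comm, zero_add] at hl)) fun s T h h' => ?_
    · rw [add_comm, zero_add]
      exact S.β_mem hx
    · have h0 : S.β S.b = 0 := S.van (by norm_num) (S.β_mem hb)
      rw [R1 _ _ x hx, R1 _ _ _ (S.β_mem hx), map_smul, S.β_mul hx hb, h0, map_zero, smul_zero,
        add_zero]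
    · have h2 := (Bool.and_eq_true_iff.1 (X s T h).2).1
      rw [h', Bool.not_true, Bool.false_or, Bool.or_eq_true, Bool.and_eq_true, Bool.not_eq_true',
        Bool.not_eq_true'] at h2
      refine h2.imp (fun h2 => ?_) id
      rw [coX_lo _ _ h2.1, coX_lo _ _ h2.2]
      exact colB C (add_comm _ _) (zero_add _).symm (resX_reg h h2.1) (resX_reg h' h2.2)
  have c5 : ∀ k s T, τ.reg s T = true → τ.reg (τ.ms k + s) (τ.mT k + T) = true → Col (S.G s T)
      (coX C.co q s T) (coX C.co q (τ.ms k + s) (τ.mT k + T)) (S.mul (C.mu k)) (τ.mul k s T) := by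
    intro k
    have hm : C.mu k ∈ S.G (τ.ms k) (τ.mT k) := C.mu_mem k
    refine col_J c1 R2 c3 (p := pV pre) (fun s T x hx => S.mul_mem hm hx) (fun s T x hx => ?_)
      (fun s T i l hl => hB.mulD i hl) fun s T h h' => ?_
    · rw [R1 _ _ x hx, R1 _ _ _ (S.mul_mem hm hx), map_smul, S.mul_assoc hm hx hb]
    · by_cases hk : k < K
      · have h2 := allB_iff.1 (Bool.and_eq_true_iff.1 (X s T h).2).2 k hk
        rw [h', Bool.not_true, Bool.false_or, Bool.or_eq_true, Bool.and_eq_true,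
          Bool.not_eq_true', Bool.not_eq_true'] at h2
        rcases h2 with h2 | h2
        · left
          rw [coX_lo _ _ h2.1, coX_lo _ _ h2.2]
          exact colM C k rfl rfl (resX_reg h h2.1) (resX_reg h' h2.2)
        · rcases e : Nat.beq k kb with _ | _
          · rw [e, cond_false] at h2
            exact Or.inr h2
          · rw [e, cond_true, Bool.and_eq_true] at h2
            obtain rfl := Nat.eq_of_beq_eq_true e
            refine Or.inl (col_of_agree (c1 s T h) h2.2 (fun i l => hB.mulD i)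
              fun i l _ z hz hi => ?_)
            have h3 := h2.1
            rw [k1, k2, add_comm 2, add_comm 3] at h3 ⊢
            exact c2 s T h3 i l z hz hi
      · exact Or.inl fun i l z _ _ => Kn.of_ge (hB.mulK s T i l (by omega)) _
  have g : ∀ s T i x, τ.dim s T ≤ i → (cond (τ.reg s T) (coX C.co q s T) 0) x i = 0 :=
    fun s T i x hi => by
      rcases h : τ.reg s T with _ | _
      · rfl
      · exact (c1 s T h).ge x i hi
  have z0 : τ.reg 0 0 = true := (Bool.and_eq_true_iff.1 C.reg_zero).1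
  exact ⟨{
    co := fun s T => cond (τ.reg s T) (coX C.co q s T) 0
    co_ge := fun x hi => g _ _ _ x hi
    inj := fun h hx h0 => (c1 _ _ h).inj _ hx (by rwa [h] at h0)
    surj := fun h hi => by rw [h]; exact (c1 _ _ h).surj _ hi
    reg_zero := z0
    co_one := by rw [z0]; exact C.co_one
    mu := C.mu
    mu_mem := C.mu_mem
    mul := fun {k s T i l z} h h' hl hz hi => by
      rw [h] at hi
      rw [h']
      exact c5 k s T h h' i l z hz hi hl
    bok := fun {s T i l z} h h' hl hz hi => by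
      rw [h] at hi
      have := c4 s T h (by rwa [add_comm, zero_add]) i l z hz hi hl
      rw [add_comm 1, zero_add] at this
      rw [h']
      exact this
    lead := fun j hj => by
      obtain ⟨h1, h2⟩ := Bool.and_eq_true_iff.1 (C.lead j hj).1
      refine ⟨h1, ?_⟩
      rw [h1, cond_true, coX_lo _ _ (by rwa [Bool.not_eq_true'] at h2)]
      exact (C.lead j hj).2 }⟩

/-- **Extension of the tables**: the steps `V`, `W` (for `kb = β k₁`) and `X`. -/
theorem crd_full (hB : Bnd τ K S0 T0) {kb k₁ : ℕ} {pre : ℕ → ℕ → ℕ → ℕ → ℕ}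
    (C : Crd (resV (resW (resX τ) kb)) S) (hk : k₁ ≠ kb)
    (hs : τ.ms kb = τ.ms k₁ + 1) (hT : τ.mT kb = τ.mT k₁) (H0 : chkB τ kb = true)
    (H1 : allC τ S0 T0 (chkV τ) = true)
    (H2 : allC (resX τ) S0 T0 (chkWb (resX τ) kb k₁) = true)
    (H3 : allC τ S0 T0 (chkX τ K kb pre) = true) : Nonempty (Crd τ S) := by
  obtain ⟨C₁⟩ := crd_V (hB.resX.resW kb) C fun s T h =>
    allC_spec hB H1 s T (Bool.and_eq_true_iff.1 h).1
  obtain ⟨C₂⟩ := crd_Wb hB.resX hk hs hT C₁ (allC_spec hB.resX H2)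
  exact crd_X hB C₂ H0 (allC_spec hB H3)

end Vale.Agent.P236Q
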