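import Vale.Agent.P236E.SS

/-!
# P236, row PER: arithmetic modulo `3` with unknown entries

* `Kn a x`: the number `a` is unknown (`3 ≤ a`) or equal to `x`; `mulU`, `addU`, `app`;
* `Cell G co n`: `co` is a system of `n` coordinates on `G`;
* `Col G co co' f M`: the known entries of `M` are entries of the matrix of `f`;
* `Cell.app`: evaluation of `f` in coordinates.
-/

namespace Vale.Agent.P236Q

open Vale.Agent.P236K Vale.Agent.P236E

/-- `a` is unknown or equal to `x`. -/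
def Kn (a : ℕ) (x : F) : Prop := a < 3 → x = (a : ℕ)

/-- Product. -/
def mulU (a b : ℕ) : ℕ :=
  cond (Nat.beq a 0) 0 (cond (Nat.beq b 0) 0 (cond (Nat.ble a 2 && Nat.ble b 2) (a * b % 3) 3))

/-- Sum. -/
def addU (a b : ℕ) : ℕ := cond (Nat.ble a 2 && Nat.ble b 2) ((a + b) % 3) 3

/-- Coordinate `l` of the vector `v` of length `n` times the matrix `M`. -/
def app (n : ℕ) (v : ℕ → ℕ) (M : ℕ → ℕ → ℕ) (l : ℕ) : ℕ :=
  Nat.rec 0 (fun m r => addU (mulU (v m) (M m l)) r) n

/-- Bounded universal quantifier. -/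
def allB (n : ℕ) (p : ℕ → Bool) : Bool := Nat.rec true (fun m r => p m && r) n

/-- The unit vectors. -/
def uv (i l : ℕ) : ℕ := cond (Nat.beq i l) 1 0

/-- `a` is unknown or equal to `b`. -/
def okU (a b : ℕ) : Bool := Nat.ble 3 a || Nat.beq a b

theorem allB_iff {n : ℕ} {p : ℕ → Bool} : allB n p = true ↔ ∀ m < n, p m = true := by
  induction n with
  | zero => exact ⟨fun _ m hm => absurd hm (Nat.not_lt_zero m), fun _ => rfl⟩
  | succ n ih =>
    change (p n && allB n p) = true ↔ _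
    rw [Bool.and_eq_true, ih]
    constructor
    · rintro ⟨h1, h2⟩ m hm
      rcases Nat.lt_succ_iff_lt_or_eq.1 hm with h | rfl
      exacts [h2 m h, h1]
    · exact fun h => ⟨h n (Nat.lt_succ_self n), fun m hm => h m (Nat.lt_succ_of_lt hm)⟩

theorem cast_mod (a : ℕ) : ((a % 3 : ℕ) : F) = (a : ℕ) := ZMod.natCast_mod a 3

theorem Kn.of_ge {a : ℕ} (h : 3 ≤ a) (x : F) : Kn a x := fun h' => absurd h' (by omega)

theorem Kn.cast (a : ℕ) : Kn a (a : ℕ) := fun _ => rfl

theorem Kn.mul {a b : ℕ} {x y : F} (h : Kn a x) (h' : Kn b y) : Kn (mulU a b) (x * y) := by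
  unfold mulU
  rcases ha : Nat.beq a 0 with _ | _
  · rcases hb : Nat.beq b 0 with _ | _
    · rcases hc : (Nat.ble a 2 && Nat.ble b 2) with _ | _
      · exact Kn.of_ge le_rfl _
      · rw [Bool.and_eq_true, Nat.ble_eq, Nat.ble_eq] at hc
        intro _
        rw [h (by omega), h' (by omega), cond_false, cond_false, cond_true, cast_mod, Nat.cast_mul]
    · obtain rfl := Nat.eq_of_beq_eq_true hb
      intro _
      rw [h' (by omega), cond_false, cond_true, Nat.cast_zero, mul_zero]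
  · obtain rfl := Nat.eq_of_beq_eq_true ha
    intro _
    rw [h (by omega), cond_true, Nat.cast_zero, zero_mul]

theorem Kn.add {a b : ℕ} {x y : F} (h : Kn a x) (h' : Kn b y) : Kn (addU a b) (x + y) := by
  unfold addU
  rcases hc : (Nat.ble a 2 && Nat.ble b 2) with _ | _
  · exact Kn.of_ge le_rfl _
  · rw [Bool.and_eq_true, Nat.ble_eq, Nat.ble_eq] at hc
    intro _
    rw [h (by omega), h' (by omega), cond_true, cast_mod, Nat.cast_add]

theorem Kn.app {n : ℕ} {v : ℕ → ℕ} {M : ℕ → ℕ → ℕ} {l : ℕ} {x y : ℕ → F}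
    (h : ∀ m < n, Kn (v m) (x m)) (h' : ∀ m < n, Kn (M m l) (y m)) :
    Kn (app n v M l) (∑ m ∈ Finset.range n, x m * y m) := by
  induction n with
  | zero => exact fun _ => by rw [Finset.sum_range_zero]; rfl
  | succ n ih =>
    rw [Finset.sum_range_succ_comm]
    exact ((h n (Nat.lt_succ_self n)).mul (h' n (Nat.lt_succ_self n))).add
      (ih (fun m hm => h m (Nat.lt_succ_of_lt hm)) fun m hm => h' m (Nat.lt_succ_of_lt hm))

theorem Kn.of_ok {a b : ℕ} {x : F} (h : okU a b = true) (h' : Kn b x) : Kn a x := by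
  rw [okU, Bool.or_eq_true, Nat.ble_eq, Nat.beq_eq] at h
  rcases h with h | rfl
  exacts [Kn.of_ge h x, h']

theorem uv_lt (i l : ℕ) : uv i l < 3 := by
  unfold uv
  cases Nat.beq i l <;> simp

theorem cast_uv (i l : ℕ) : ((uv i l : ℕ) : F) = (Pi.single i 1 : ℕ → F) l := by
  unfold uv
  rcases h : Nat.beq i l with _ | _
  · rw [Pi.single_eq_of_ne (Ne.symm (Nat.ne_of_beq_eq_false h)), cond_false, Nat.cast_zero]
  · obtain rfl := Nat.eq_of_beq_eq_true h
    rw [Pi.single_eq_same, cond_true, Nat.cast_one]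

theorem Kn.uv (i l : ℕ) : Kn (uv i l) ((Pi.single i 1 : ℕ → F) l) := fun _ => (cast_uv i l).symm

variable {A : Type} [AddCommGroup A] [Module F A]

/-- `co` is a system of `n` coordinates on `G`. -/
structure Cell (G : Submodule F A) (co : A →ₗ[F] (ℕ → F)) (n : ℕ) : Prop where
  ge : ∀ x i, n ≤ i → co x i = 0
  inj : ∀ x ∈ G, co x = 0 → x = 0
  surj : ∀ i < n, ∃ x ∈ G, co x = Pi.single i 1

/-- The known entries of `M` are entries of the matrix of `f`. -/
def Col (G : Submodule F A) (co co' : A →ₗ[F] (ℕ → F)) (f : A →ₗ[F] A) (M : ℕ → ℕ → ℕ) : Prop :=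
  ∀ i l, ∀ z ∈ G, co z = Pi.single i 1 → Kn (M i l) (co' (f z) l)

variable {G : Submodule F A} {co co' : A →ₗ[F] (ℕ → F)} {n : ℕ} (H : Cell G co n)

include H

theorem Cell.lt {z : A} {i : ℕ} (hz : co z = Pi.single i 1) : i < n := by
  by_contra h
  have := H.ge z i (by omega)
  rw [hz, Pi.single_eq_same] at this
  exact one_ne_zero this

theorem Cell.eq {x y : A} (hx : x ∈ G) (hy : y ∈ G) (h : ∀ l < n, co x l = co y l) : x = y := by
  rw [← sub_eq_zero]
  refine H.inj _ (sub_mem hx hy) (funext fun l => ?_)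
  by_cases hl : l < n
  · rw [map_sub, Pi.sub_apply, h l hl, sub_self, Pi.zero_apply]
  · exact H.ge _ l (by omega)

theorem Cell.basis : ∃ z : ℕ → A, (∀ i < n, z i ∈ G ∧ co (z i) = Pi.single i 1) ∧
    ∀ c : ℕ → F, ∑ i ∈ Finset.range n, c i • z i ∈ G ∧
      ∀ l < n, co (∑ i ∈ Finset.range n, c i • z i) l = c l := by
  have h : ∀ i, ∃ x : A, i < n → x ∈ G ∧ co x = Pi.single i 1 := fun i => by
    by_cases hi : i < n
    · obtain ⟨x, hx⟩ := H.surj i hi
      exact ⟨x, fun _ => hx⟩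
    · exact ⟨0, fun h => absurd h hi⟩
  choose z hz using h
  refine ⟨z, hz, fun c => ⟨Submodule.sum_mem _ fun i hi =>
    G.smul_mem _ (hz i (Finset.mem_range.1 hi)).1, fun l hl => ?_⟩⟩
  rw [map_sum, Finset.sum_apply, Finset.sum_eq_single l]
  · rw [map_smul, (hz l hl).2, Pi.smul_apply, Pi.single_eq_same, smul_eq_mul, mul_one]
  · intro i hi hil
    rw [map_smul, (hz i (Finset.mem_range.1 hi)).2, Pi.smul_apply, Pi.single_eq_of_ne hil.symm,
      smul_zero]
  · exact fun h => absurd (Finset.mem_range.2 hl) h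

theorem Cell.exists_co (c : ℕ → F) : ∃ x ∈ G, ∀ l < n, co x l = c l := by
  obtain ⟨z, -, h⟩ := H.basis
  exact ⟨_, (h c).1, (h c).2⟩

/-- **Evaluation in coordinates.** -/
theorem Cell.app {f : A →ₗ[F] A} {M : ℕ → ℕ → ℕ} (hM : Col G co co' f M) {x : A} (hx : x ∈ G)
    {v : ℕ → ℕ} (hv : ∀ m < n, Kn (v m) (co x m)) (l : ℕ) : Kn (app n v M l) (co' (f x) l) := by
  obtain ⟨z, hz, h⟩ := H.basis
  have e : x = ∑ i ∈ Finset.range n, co x i • z i :=
    H.eq hx (h _).1 fun l hl => ((h _).2 l hl).symm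
  have e' : co' (f x) l = ∑ m ∈ Finset.range n, co x m * co' (f (z m)) l := by
    conv_lhs => rw [e]
    rw [map_sum, map_sum, Finset.sum_apply]
    refine Finset.sum_congr rfl fun m _ => ?_
    rw [map_smul, map_smul, Pi.smul_apply, smul_eq_mul]
  rw [e']
  exact Kn.app hv fun m hm => hM m l _ (hz m hm).1 (hz m hm).2

end Vale.Agent.P236Q
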