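import Vale.Agent.P236Q.Sub

/-!
# P236, row PER: packed tables

A table is a search tree with one number `w` for each cell `(s, T)`, key `128 T + s`:
bit `0` of `w` says that the cell is known, bits `1 - 5` are the dimension, bits `6 - 11` are the
length `σ` of a row, and the row number `i (K + 2) + q` starts at bit `16 + σ (i (K + 2) + q)`.
It contains two bits per entry: the Bockstein (`q = 0`), the preimage under `b₁` (`q = 1`), the
product with the multiplier `k` (`q = k + 2`) of the basis element `i`.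
-/

namespace Vale.Agent.P236Q

open Vale.Agent.P236K Vale.Agent.P236E

/-- Search trees. -/
inductive Tr where
  | leaf (w : ℕ) : Tr
  | node (p : ℕ) (l r : Tr) : Tr

/-- The number with the key `n`. -/
noncomputable def Tr.get (t : Tr) (n : ℕ) : ℕ :=
  Tr.rec (fun w => w) (fun p _ _ il ir => cond (Nat.ble p n) ir il) t

/-- Evaluate a number before using it. -/
noncomputable def frc {α : Type} (n : ℕ) (k : ℕ → α) : α :=
  Nat.rec (k 0) (fun m _ => k m) (Nat.add n 1)

/-- The number of the cell `(s, T)`. -/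
noncomputable def cw (t : Tr) (s T : ℕ) : ℕ := frc (Nat.add (Nat.mul 128 T) s) t.get

/-- The row `q` of the basis element `i`. -/
noncomputable def row (t : Tr) (K q s T i : ℕ) : ℕ :=
  frc (cw t s T) fun w => Nat.shiftRight w (Nat.add 16
    (Nat.mul (Nat.mod (Nat.shiftRight w 6) 64) (Nat.add (Nat.mul i (Nat.add K 2)) q)))

/-- An entry. -/
noncomputable def ent (t : Tr) (K q s T i l : ℕ) : ℕ :=
  Nat.mod (Nat.shiftRight (row t K q s T i) (Nat.mul 2 l)) 4

/-- The field `k` of width `8`. -/
def fld (w k : ℕ) : ℕ := Nat.mod (Nat.shiftRight w (Nat.mul 8 k)) 256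

/-- The table, without bounds. -/
noncomputable def tabRaw (t : Tr) (K MS MT LD : ℕ) : Tab where
  reg s T := van s T || Nat.beq (Nat.mod (cw t s T) 2) 1
  dim s T := Nat.mod (Nat.shiftRight (cw t s T) 1) 32
  ms := fld MS
  mT := fld MT
  mul k := ent t K (Nat.add k 2)
  bok := ent t K 0
  lead := fld LD

/-- The table. -/
noncomputable def tabOf (t : Tr) (K S0 T0 MS MT LD : ℕ) : Tab :=
  bnd (tabRaw t K MS MT LD) K S0 T0

/-- The preimages under `b₁`. -/
noncomputable def preOf (t : Tr) (K : ℕ) : ℕ → ℕ → ℕ → ℕ → ℕ := ent t K 1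

theorem bnd_tabOf (t : Tr) (K S0 T0 MS MT LD : ℕ) : Bnd (tabOf t K S0 T0 MS MT LD) K S0 T0 :=
  bnd_bnd _ K S0 T0

end Vale.Agent.P236Q
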