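import Vale.Agent.P236Q.Kn

/-!
# P236, row PER: extension of the tables, the steps `V` and `W`

* `Bnd τ K S0 T0`: the table is finite; `bnd τ K S0 T0` is finite by construction;
* `crd_V`: the cells below the vanishing line;
* `crd_Wb`, `crd_Wm`: a new multiplier, the Bockstein of a multiplier or a product of two.
-/

namespace Vale.Agent.P236Q

open Vale.Agent.P236K Vale.Agent.P236E

/-- The table is finite. -/
structure Bnd (τ : Tab) (K S0 T0 : ℕ) : Prop where
  reg : ∀ {s T}, τ.reg s T = true → s < S0 ∧ T < T0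
  mulK : ∀ {k} (s T i l), K ≤ k → 3 ≤ τ.mul k s T i l
  mulD : ∀ {k s T l} (i), τ.dim (τ.ms k + s) (τ.mT k + T) ≤ l → 3 ≤ τ.mul k s T i l
  bokD : ∀ {s T l} (i), τ.dim (s + 1) T ≤ l → 3 ≤ τ.bok s T i l

/-- The finite part of a table. -/
def bnd (τ : Tab) (K S0 T0 : ℕ) : Tab :=
  { τ with
    reg := fun s T => Nat.blt s S0 && (Nat.blt T T0 && τ.reg s T)
    mul := fun k s T i l => cond (Nat.blt k K && Nat.blt l (τ.dim (τ.ms k + s) (τ.mT k + T)))
      (τ.mul k s T i l) 3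
    bok := fun s T i l => cond (Nat.blt l (τ.dim (s + 1) T)) (τ.bok s T i l) 3 }

theorem blt_false {a b : ℕ} (h : b ≤ a) : Nat.blt a b = false := by
  rw [← Bool.not_eq_true, Nat.blt_eq]
  omega

theorem bnd_bnd (τ : Tab) (K S0 T0 : ℕ) : Bnd (bnd τ K S0 T0) K S0 T0 where
  reg h := by
    simp only [bnd, Bool.and_eq_true, Nat.blt_eq] at h
    exact ⟨h.1, h.2.1⟩
  mulK s T i l h := by
    simp only [bnd, blt_false h, Bool.false_and, cond_false, le_refl]
  mulD i h := by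
    simp only [bnd] at h ⊢
    simp only [blt_false h, Bool.and_false, cond_false, le_refl]
  bokD i h := by
    simp only [bnd] at h ⊢
    simp only [blt_false h, cond_false, le_refl]

/-- A check on all cells. -/
def allC (τ : Tab) (S0 T0 : ℕ) (p : ℕ → ℕ → Bool) : Bool :=
  allB T0 fun T => allB S0 fun s => !τ.reg s T || p s T

theorem allC_spec {τ : Tab} {K S0 T0 : ℕ} (hB : Bnd τ K S0 T0) {p : ℕ → ℕ → Bool}
    (h : allC τ S0 T0 p = true) (s T : ℕ) (hr : τ.reg s T = true) : p s T = true := by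
  have := allB_iff.1 (allB_iff.1 h T (hB.reg hr).2) s (hB.reg hr).1
  rwa [hr, Bool.not_true, Bool.false_or] at this

variable {τ : Tab} {S : SS} {K S0 T0 : ℕ}

theorem cell (C : Crd τ S) {s T : ℕ} (h : τ.reg s T = true) :
    Cell (S.G s T) (C.co s T) (τ.dim s T) where
  ge x _ hi := C.co_ge x hi
  inj _ hx h0 := C.inj h hx h0
  surj _ hi := C.surj h hi

theorem colM (C : Crd τ S) (k : ℕ) {s T s' T' : ℕ} (hs : τ.ms k + s = s') (hT : τ.mT k + T = T')
    (h : τ.reg s T = true) (h' : τ.reg s' T' = true) :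
    Col (S.G s T) (C.co s T) (C.co s' T') (S.mul (C.mu k)) (τ.mul k s T) := by
  subst hs hT
  exact fun _ _ _ hz hc hl => C.mul h h' hl hz hc

theorem colB (C : Crd τ S) {s T s' T' : ℕ} (hs : s + 1 = s') (hT : T = T')
    (h : τ.reg s T = true) (h' : τ.reg s' T' = true) :
    Col (S.G s T) (C.co s T) (C.co s' T') S.β (τ.bok s T) := by
  subst hs hT
  exact fun _ _ _ hz hc hl => C.bok h h' hl hz hc

/-! ### Step `V` -/

/-- The cells below the vanishing line. -/
def van (s T : ℕ) : Bool := Nat.blt (2 * T + 1) (3 * s)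

/-- The table without the cells below the vanishing line. -/
def resV (τ : Tab) : Tab := { τ with reg := fun s T => τ.reg s T && !van s T }

/-- The check for the step `V`. -/
def chkV (τ : Tab) (s T : ℕ) : Bool := !van s T || Nat.beq (τ.dim s T) 0

theorem Bnd.resV (hB : Bnd τ K S0 T0) : Bnd (resV τ) K S0 T0 :=
  ⟨fun h => hB.reg (Bool.and_eq_true_iff.1 h).1, hB.mulK, hB.mulD, hB.bokD⟩

theorem crd_V (hB : Bnd τ K S0 T0) (C : Crd (resV τ) S)
    (H : ∀ s T, τ.reg s T = true → chkV τ s T = true) : Nonempty (Crd τ S) := by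
  have h1 : ∀ {s T}, τ.reg s T = true → (resV τ).reg s T = true ∨
      (τ.dim s T = 0 ∧ ∀ x ∈ S.G s T, x = 0) := fun {s T} h => by
    rcases hv : van s T with _ | _
    · exact Or.inl (by simp only [resV, h, hv, Bool.not_false, Bool.and_self])
    · have h2 := H s T h
      rw [chkV, hv, Bool.not_true, Bool.false_or, Nat.beq_eq] at h2
      exact Or.inr ⟨h2, fun x hx => S.van (by rwa [van, Nat.blt_eq] at hv) hx⟩
  have h2 : ∀ {s T i z}, (∀ x ∈ S.G s T, x = 0) → z ∈ S.G s T → C.co s T z ≠ Pi.single i 1 :=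
    fun {s T i z} h hz hc => by
      have := congrFun hc i
      rw [h z hz, map_zero, Pi.zero_apply, Pi.single_eq_same] at this
      exact zero_ne_one this
  exact ⟨{
    co := C.co
    co_ge := C.co_ge
    inj := fun h hx h0 => (h1 h).elim (fun h => C.inj h hx h0) fun h => h.2 _ hx
    surj := fun h hi => (h1 h).elim (fun h => C.surj h hi) fun h => by omega
    reg_zero := (Bool.and_eq_true_iff.1 C.reg_zero).1
    co_one := C.co_one
    mu := C.mu
    mu_mem := C.mu_mem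
    mul := fun {k s T i l z} h h' hl hz hc => (h1 h).elim (fun h => (h1 h').elim
      (fun h' => C.mul h h' hl hz hc) fun h' => absurd (hB.mulD i (by omega)) (not_le.2 hl))
      fun h => absurd hc (h2 h.2 hz)
    bok := fun {s T i l z} h h' hl hz hc => (h1 h).elim (fun h => (h1 h').elim
      (fun h' => C.bok h h' hl hz hc) fun h' => absurd (hB.bokD i (by omega)) (not_le.2 hl))
      fun h => absurd hc (h2 h.2 hz)
    lead := fun j hj => ⟨(Bool.and_eq_true_iff.1 (C.lead j hj).1).1, (C.lead j hj).2⟩ }⟩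

/-! ### Step `W` -/

/-- The table without the entries of the multiplier `k`. -/
def resW (τ : Tab) (k : ℕ) : Tab :=
  { τ with mul := fun k' s T i l => cond (Nat.beq k' k) 3 (τ.mul k' s T i l) }

theorem resW_mul {k k' : ℕ} (h : k' ≠ k) : (resW τ k).mul k' = τ.mul k' := by
  funext s T i l
  have : Nat.beq k' k = false := by
    rw [← Bool.not_eq_true, Nat.beq_eq]
    exact h
  simp only [resW, this, cond_false]

theorem Bnd.resW (hB : Bnd τ K S0 T0) (k : ℕ) : Bnd (resW τ k) K S0 T0 where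
  reg := hB.reg
  mulK {k'} s T i l h := by
    simp only [P236Q.resW]
    cases Nat.beq k' k
    exacts [hB.mulK s T i l h, le_rfl]
  mulD {k' s T l} i h := by
    simp only [P236Q.resW]
    cases Nat.beq k' k
    exacts [hB.mulD i h, le_rfl]
  bokD := hB.bokD

/-- A new multiplier. -/
theorem crd_W {k : ℕ} (C : Crd (resW τ k) S) {μ : S.A} (hμ : μ ∈ S.G (τ.ms k) (τ.mT k))
    (H : ∀ s T, τ.reg s T = true → τ.reg (τ.ms k + s) (τ.mT k + T) = true →
      Col (S.G s T) (C.co s T) (C.co (τ.ms k + s) (τ.mT k + T)) (S.mul μ) (τ.mul k s T)) :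
    Nonempty (Crd τ S) :=
  ⟨{
    co := C.co
    co_ge := C.co_ge
    inj := C.inj
    surj := C.surj
    reg_zero := C.reg_zero
    co_one := C.co_one
    mu := fun k' => if k' = k then μ else C.mu k'
    mu_mem := fun k' => by
      split_ifs with h
      · rwa [h]
      · exact C.mu_mem k'
    mul := fun {k' s T i l z} h h' hl hz hc => by
      split_ifs with e
      · subst e
        exact H s T h h' i l z hz hc hl
      · rw [← resW_mul e] at hl ⊢
        exact C.mul h h' hl hz hc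
    bok := C.bok
    lead := C.lead }⟩

/-- All known entries of `M` agree with `N`; if there is a known entry, then `c` holds. -/
def agree (n n' : ℕ) (M : ℕ → ℕ → ℕ) (c : ℕ → Bool) (N : ℕ → ℕ → ℕ) : Bool :=
  allB n fun i => (allB n' fun l => Nat.ble 3 (M i l)) ||
    (c i && allB n' fun l => okU (M i l) (N i l))

theorem col_of_agree {A : Type} [AddCommGroup A] [Module F A] {G : Submodule F A}
    {co co' : A →ₗ[F] (ℕ → F)} {n n' : ℕ} (H : Cell G co n) {f : A →ₗ[F] A} {M N : ℕ → ℕ → ℕ}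
    {c : ℕ → Bool} (h : agree n n' M c N = true) (hD : ∀ i l, n' ≤ l → 3 ≤ M i l)
    (hN : ∀ i l, c i = true → ∀ z ∈ G, co z = Pi.single i 1 → Kn (N i l) (co' (f z) l)) :
    Col G co co' f M := by
  intro i l z hz hc
  by_cases hl : l < n'
  · rcases Bool.or_eq_true_iff.1 (allB_iff.1 h i (H.lt hc)) with h1 | h1
    · exact Kn.of_ge (Nat.le_of_ble_eq_true (allB_iff.1 h1 l hl)) _
    · rw [Bool.and_eq_true] at h1
      exact Kn.of_ok (allB_iff.1 h1.2 l hl) (hN i l h1.1 z hz hc)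
  · exact Kn.of_ge (hD i l (by omega)) _

/-- The check for the multiplier `k = β k₁`. -/
def chkWb (τ : Tab) (k k₁ s T : ℕ) : Bool :=
  !τ.reg (τ.ms k + s) (τ.mT k + T) ||
  agree (τ.dim s T) (τ.dim (τ.ms k + s) (τ.mT k + T)) (τ.mul k s T)
    (fun _ => τ.reg (τ.ms k₁ + s) (τ.mT k₁ + T) && τ.reg (s + 1) T) fun i l =>
    addU (app (τ.dim (τ.ms k₁ + s) (τ.mT k₁ + T)) (τ.mul k₁ s T i)
        (τ.bok (τ.ms k₁ + s) (τ.mT k₁ + T)) l)
      (mulU (2 - τ.ms k₁ % 2) (app (τ.dim (s + 1) T) (τ.bok s T i) (τ.mul k₁ (s + 1) T) l))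

theorem kn_sgn (a : ℕ) : Kn (2 - a % 2) (-(-1 : F) ^ a) := by
  intro _
  rcases Nat.even_or_odd' a with ⟨j, rfl | rfl⟩
  · rw [pow_mul, neg_one_sq, one_pow, Nat.mul_mod_right]
    rfl
  · rw [pow_succ, pow_mul, neg_one_sq, one_pow, Nat.mul_add_mod]
    rfl

theorem crd_Wb (hB : Bnd τ K S0 T0) {k k₁ : ℕ} (hk : k₁ ≠ k) (hs : τ.ms k = τ.ms k₁ + 1)
    (hT : τ.mT k = τ.mT k₁) (C : Crd (resW τ k) S)
    (H : ∀ s T, τ.reg s T = true → chkWb τ k k₁ s T = true) : Nonempty (Crd τ S) := by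
  have hμ : C.mu k₁ ∈ S.G (τ.ms k₁) (τ.mT k₁) := C.mu_mem k₁
  refine crd_W C (μ := S.β (C.mu k₁)) (by rw [hs, hT]; exact S.β_mem hμ) fun s T h h' => ?_
  have h1 := H s T h
  rw [chkWb, h', Bool.not_true, Bool.false_or] at h1
  refine col_of_agree (cell C h) h1 (fun i l => hB.mulD i) fun i l hc z hz hi => ?_
  rw [Bool.and_eq_true] at hc
  have e : S.mul (S.β (C.mu k₁)) z = S.β (S.mul (C.mu k₁) z) +
      (-(-1 : F) ^ τ.ms k₁) • S.mul (C.mu k₁) (S.β z) := by
    rw [S.β_mul hμ hz, neg_smul, add_neg_cancel_right]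
  rw [e, map_add, map_smul, Pi.add_apply, Pi.smul_apply, smul_eq_mul]
  have c1 := colM C k₁ rfl rfl h hc.1
  have c2 := colB C (s' := τ.ms k + s) (T' := τ.mT k + T) (by omega) (by rw [hT]) hc.1 h'
  have c3 := colB C rfl rfl h hc.2
  have c4 := colM C k₁ (s := s + 1) (T := T) (s' := τ.ms k + s) (T' := τ.mT k + T)
    (by change τ.ms k₁ + _ = _; omega) (by rw [hT]; rfl) hc.2 h'
  rw [resW_mul hk] at c1 c4
  exact ((cell C hc.1).app c2 (S.mul_mem hμ hz) (fun m _ => c1 i m z hz hi) l).add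
    ((kn_sgn _).mul ((cell C hc.2).app c4 (S.β_mem hz) (fun m _ => c3 i m z hz hi) l))

/-- The check for the multiplier `k = k₁ k₂`. -/
def chkWm (τ : Tab) (k k₁ k₂ s T : ℕ) : Bool :=
  !τ.reg (τ.ms k + s) (τ.mT k + T) ||
  agree (τ.dim s T) (τ.dim (τ.ms k + s) (τ.mT k + T)) (τ.mul k s T)
    (fun _ => τ.reg (τ.ms k₂ + s) (τ.mT k₂ + T)) fun i l =>
    app (τ.dim (τ.ms k₂ + s) (τ.mT k₂ + T)) (τ.mul k₂ s T i)
      (τ.mul k₁ (τ.ms k₂ + s) (τ.mT k₂ + T)) l

theorem crd_Wm (hB : Bnd τ K S0 T0) {k k₁ k₂ : ℕ} (hk₁ : k₁ ≠ k) (hk₂ : k₂ ≠ k)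
    (hs : τ.ms k = τ.ms k₁ + τ.ms k₂) (hT : τ.mT k = τ.mT k₁ + τ.mT k₂) (C : Crd (resW τ k) S)
    (H : ∀ s T, τ.reg s T = true → chkWm τ k k₁ k₂ s T = true) : Nonempty (Crd τ S) := by
  have hμ₁ : C.mu k₁ ∈ S.G (τ.ms k₁) (τ.mT k₁) := C.mu_mem k₁
  have hμ₂ : C.mu k₂ ∈ S.G (τ.ms k₂) (τ.mT k₂) := C.mu_mem k₂
  refine crd_W C (μ := S.mul (C.mu k₁) (C.mu k₂)) (by rw [hs, hT]; exact S.mul_mem hμ₁ hμ₂)
    fun s T h h' => ?_
  have h1 := H s T h
  rw [chkWm, h', Bool.not_true, Bool.false_or] at h1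
  refine col_of_agree (cell C h) h1 (fun i l => hB.mulD i) fun i l hc z hz hi => ?_
  rw [S.mul_assoc hμ₁ hμ₂ hz]
  have c1 := colM C k₂ rfl rfl h hc
  have c2 := colM C k₁ (s := τ.ms k₂ + s) (T := τ.mT k₂ + T) (s' := τ.ms k + s)
    (T' := τ.mT k + T) (by change τ.ms k₁ + _ = _; omega) (by change τ.mT k₁ + _ = _; omega) hc h'
  rw [resW_mul hk₂] at c1
  rw [resW_mul hk₁] at c2
  exact (cell C hc).app c2 (S.mul_mem hμ₂ hz) (fun m _ => c1 i m z hz hi) l

end Vale.Agent.P236Q
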