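import Vale.Agent.P236Q.Ext

/-!
# P236, row PER: comparison of tables

* `crd_R`: a table whose known entries are entries of `τ₀`; the multiplier `k` is the multiplier
  `σ k` of `τ₀`;
* `crd_of_direct`: from the tables `τ₀` on the direct cells to the full table.
-/

namespace Vale.Agent.P236Q

open Vale.Agent.P236K Vale.Agent.P236E

variable {τ τ₀ : Tab} {S : SS} {K S0 T0 : ℕ}

/-- The check for the step `R`. -/
def chkR (τ τ₀ : Tab) (K : ℕ) (σ : ℕ → ℕ) (s T : ℕ) : Bool :=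
  τ₀.reg s T && (Nat.beq (τ.dim s T) (τ₀.dim s T) &&
  ((!τ.reg (s + 1) T || agree (τ.dim s T) (τ.dim (s + 1) T) (τ.bok s T) (fun _ => true)
    (τ₀.bok s T)) &&
  allB K fun k => !τ.reg (τ.ms k + s) (τ.mT k + T) ||
    agree (τ.dim s T) (τ.dim (τ.ms k + s) (τ.mT k + T)) (τ.mul k s T)
      (fun _ => Nat.beq (τ.ms k) (τ₀.ms (σ k)) && Nat.beq (τ.mT k) (τ₀.mT (σ k)))
      (τ₀.mul (σ k) s T)))

/-- The check of the special cells. -/
def chkL (τ τ₀ : Tab) : Bool :=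
  τ.reg 0 0 && allB 4 fun j => τ.reg 2 (3 ^ (j + 1)) && Nat.beq (τ.lead j) (τ₀.lead j)

theorem crd_R (hB : Bnd τ K S0 T0) {σ : ℕ → ℕ} (C : Crd τ₀ S) (H0 : chkL τ τ₀ = true)
    (H : ∀ s T, τ.reg s T = true → chkR τ τ₀ K σ s T = true) : Nonempty (Crd τ S) := by
  have X := fun s T h => Bool.and_eq_true_iff.1 (H s T h)
  have r : ∀ {s T}, τ.reg s T = true → τ₀.reg s T = true := fun h => (X _ _ h).1
  have d : ∀ {s T}, τ.reg s T = true → τ.dim s T = τ₀.dim s T := fun h =>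
    Nat.eq_of_beq_eq_true (Bool.and_eq_true_iff.1 (X _ _ h).2).1
  have Y := fun s T h => Bool.and_eq_true_iff.1 (Bool.and_eq_true_iff.1 (X s T h).2).2
  have c1 : ∀ {s T}, τ.reg s T = true → Cell (S.G s T) (C.co s T) (τ.dim s T) := fun h => by
    rw [d h]
    exact cell C (r h)
  rw [chkL, Bool.and_eq_true, allB_iff] at H0
  refine ⟨{
    co := fun s T => cond (τ.reg s T) (C.co s T) 0
    co_ge := fun {s T i} x hi => ?_
    inj := fun h hx h0 => (c1 h).inj _ hx (by rwa [h] at h0)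
    surj := fun h hi => by rw [h]; exact (c1 h).surj _ hi
    reg_zero := H0.1
    co_one := by rw [H0.1]; exact C.co_one
    mu := fun k => if τ.ms k = τ₀.ms (σ k) ∧ τ.mT k = τ₀.mT (σ k) then C.mu (σ k) else 0
    mu_mem := fun k => ?_
    mul := fun {k s T i l z} h h' hl hz hi => ?_
    bok := fun {s T i l z} h h' hl hz hi => ?_
    lead := fun j hj => ?_ }⟩
  · rcases h : τ.reg s T with _ | _
    · rfl
    · exact (c1 h).ge x i hi
  · split_ifs with e
    · rw [e.1, e.2]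
      exact C.mu_mem _
    · exact zero_mem _
  · rw [h] at hi
    rw [h']
    have hk : k < K := by
      by_contra hk
      exact absurd (hB.mulK s T i l (by omega)) (not_le.2 hl)
    have h1 := allB_iff.1 (Y s T h).2 k hk
    rw [h', Bool.not_true, Bool.false_or] at h1
    refine col_of_agree (c1 h) h1 (fun i l => hB.mulD i) (fun i l e z hz hi => ?_) i l z hz hi hl
    rw [Bool.and_eq_true, Nat.beq_eq, Nat.beq_eq] at e
    rw [if_pos e]
    exact colM C (σ k) (by rw [e.1]) (by rw [e.2]) (r h) (r h') i l z hz hi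
  · rw [h] at hi
    rw [h']
    have h1 := (Y s T h).1
    rw [h', Bool.not_true, Bool.false_or] at h1
    exact col_of_agree (c1 h) h1 (fun i l => hB.bokD i)
      (fun i l _ z hz hi => colB C rfl rfl (r h) (r h') i l z hz hi) i l z hz hi hl
  · have h1 := H0.2 j (by omega)
    rw [Bool.and_eq_true, Nat.beq_eq] at h1
    refine ⟨h1.1, ?_⟩
    rw [h1.1, h1.2]
    exact (C.lead j hj).2

/-- The direct part of a table. -/
def direct (τ : Tab) (kb : ℕ) : Tab := resV (resW (resX τ) kb)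

/-- All checks in the cell `(s, T)`. -/
def chkAll (τ τ₀ : Tab) (K kb k₁ : ℕ) (σ : ℕ → ℕ) (pre : ℕ → ℕ → ℕ → ℕ → ℕ) (s T : ℕ) : Bool :=
  (!(direct τ kb).reg s T || chkR (direct τ kb) τ₀ K σ s T) && (chkV τ s T &&
    ((!(resX τ).reg s T || chkWb (resX τ) kb k₁ s T) && chkX τ K kb pre s T))

/-- The global checks. -/
def chkG (τ τ₀ : Tab) (kb k₁ : ℕ) : Bool :=
  chkL (direct τ kb) τ₀ && (chkB τ kb && (!Nat.beq k₁ kb &&
    (Nat.beq (τ.ms kb) (τ.ms k₁ + 1) && Nat.beq (τ.mT kb) (τ.mT k₁))))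

/-- The checks for the cells of degree `T`. -/
def chkT (τ τ₀ : Tab) (K S0 kb k₁ : ℕ) (σ : ℕ → ℕ) (pre : ℕ → ℕ → ℕ → ℕ → ℕ) (T : ℕ) : Bool :=
  allB S0 fun s => !τ.reg s T || chkAll τ τ₀ K kb k₁ σ pre s T

/-- **From the direct cells to the full table.** -/
theorem crd_of_direct (hB : Bnd τ K S0 T0) {kb k₁ : ℕ} {σ : ℕ → ℕ} {pre : ℕ → ℕ → ℕ → ℕ → ℕ}
    (C : Crd τ₀ S) (H0 : chkG τ τ₀ kb k₁ = true)
    (H : ∀ T < T0, chkT τ τ₀ K S0 kb k₁ σ pre T = true) : Nonempty (Crd τ S) := by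
  have X : ∀ s T, τ.reg s T = true → chkAll τ τ₀ K kb k₁ σ pre s T = true := fun s T h => by
    have := allB_iff.1 (H T (hB.reg h).2) s (hB.reg h).1
    rwa [h, Bool.not_true, Bool.false_or] at this
  simp only [chkAll, Bool.and_eq_true] at X
  simp only [chkG, Bool.and_eq_true, Nat.beq_eq, Bool.not_eq_true'] at H0
  obtain ⟨g1, g2, g3, g4, g5⟩ := H0
  have r : ∀ {s T}, (resX τ).reg s T = true → τ.reg s T = true := fun h =>
    (Bool.and_eq_true_iff.1 h).1
  obtain ⟨C₀⟩ := crd_R (τ := direct τ kb) (hB.resX.resW kb).resV C g1 fun s T h => by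
    have := (X s T (r (Bool.and_eq_true_iff.1 h).1)).1
    rwa [h, Bool.not_true, Bool.false_or] at this
  obtain ⟨C₁⟩ := crd_V (hB.resX.resW kb) C₀ fun s T h => (X s T (r h)).2.1
  obtain ⟨C₂⟩ := crd_Wb hB.resX (Nat.ne_of_beq_eq_false g3) g4 g5 C₁ fun s T h => by
    have := (X s T (r h)).2.2.1
    rwa [h, Bool.not_true, Bool.false_or] at this
  exact crd_X hB C₂ g2 fun s T h => (X s T h).2.2.2

end Vale.Agent.P236Q
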